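import Vale.Agent.P355.H950U.Ct0
import Vale.Agent.P355.H950U.Ct1
import Vale.Agent.P355.H950U.Ct2
import Vale.Agent.P355.H950U.Ct3
import Vale.Agent.P355.H950U.Ct4
import Vale.Agent.P355.H950U.Ct5
import Vale.Agent.P355.H950U.Ct6
import Vale.Agent.P355.H950U.Ct7

/-! Class table. -/

namespace Vale.Agent.P355.H950U

open Vale.Agent.P355.H387 (CT)

def n2_0 : CT := .nd n3_0 n3_4
def n2_1 : CT := .nd n3_1 n3_5
def n2_2 : CT := .nd n3_2 n3_6
def n2_3 : CT := .nd n3_3 n3_7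
def n1_0 : CT := .nd n2_0 n2_2
def n1_1 : CT := .nd n2_1 n2_3

/-- the class table. -/
def ct : CT := .nd n1_0 n1_1

end Vale.Agent.P355.H950U
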